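import Vale.Agent.P089.Main

open scoped InnerProductSpace

theorem Vale.Agent.Results.P089.Disproof.result :
    ∃ (G : Type) (_ : Group G) (_ : Countable G),
      ∀ (H : Type) [NormedAddCommGroup H] [InnerProductSpace ℂ H] [CompleteSpace H]
        (δ : HilbertBasis G ℂ H),
        ∃ p ∈ (StarAlgebra.adjoin ℂ
            {T : H →L[ℂ] H | ∃ g, ∀ h, T (δ h) = δ (g * h)}).topologicalClosure,
          IsStarProjection p ∧ ∀ q : ℚ, ⟪δ 1, p (δ 1)⟫_ℂ ≠ q := by
  obtain ⟨G, _, _, h⟩ := Vale.Agent.P089.main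
  refine ⟨G, inferInstance, inferInstance, fun H _ _ _ δ => ?_⟩
  obtain ⟨p, h1, h2, t, h3, h4⟩ := h H δ
  refine ⟨p, closure_mono (fun T hT => ?_) h1, h2, fun q hq => h3 ⟨q, ?_⟩⟩
  · exact (Submodule.span_le (p := Subalgebra.toSubmodule (StarAlgebra.adjoin ℂ _).toSubalgebra)).2
      (StarAlgebra.subset_adjoin ℂ _) hT
  · rw [h4] at hq
    exact_mod_cast hq.symm
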