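import Vale.Agent.P089.Main

open scoped InnerProductSpace

theorem Vale.Agent.Results.P089.IrrTrace.result :
    ∃ (G : Type) (_ : Group G) (_ : Countable G),
      ∀ (H : Type) [NormedAddCommGroup H] [InnerProductSpace ℂ H] [CompleteSpace H]
        (δ : HilbertBasis G ℂ H),
        ∃ p ∈ closure (Submodule.span ℂ {T : H →L[ℂ] H | ∃ g, ∀ h, T (δ h) = δ (g * h)} :
            Set (H →L[ℂ] H)),
          IsStarProjection p ∧ ∃ t : ℝ, Irrational t ∧ ⟪δ 1, p (δ 1)⟫_ℂ = t :=
  Vale.Agent.P089.main
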